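import Vale.Agent.P254.Defs
import Vale.Agent.P254.SP.Stab

/-! P254, first question: the strong isotropic constant conjecture. -/

set_option autoImplicit false

namespace Vale.Agent.Results.P254.StrongIsotropicConstant

open Vale.Agent.P254

/-- **The strong isotropic constant conjecture, with its equality case.**  In every dimension
`n ≥ 1`, every convex body `K ⊆ ℝⁿ` and every `n`-simplex `S` satisfy `L_K ≤ L_S`, with equality
exactly when `K` is a simplex; moreover
`L_S = ((n!)² / ((n+1)^(n+1) (n+2)^n))^(1/(2n))`. -/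
theorem result : ∀ (n : ℕ), 1 ≤ n → ∀ K : Set (Fin n → ℝ), IsConvexBody K →
    ∀ S : Set (Fin n → ℝ), IsSimplex S →
      isoConst K ≤ isoConst S ∧ (isoConst K = isoConst S ↔ IsSimplex K) ∧
      isoConst S = ((n.factorial : ℝ) ^ 2 /
        (((n : ℝ) + 1) ^ (n + 1) * ((n : ℝ) + 2) ^ n)) ^ (1 / (2 * (n : ℝ))) := by
  intro n hn K hK S hS
  have h := SP567.isoConst_full_of_stab SP.stab n hn K S hK hS
  refine ⟨h.1, ⟨h.2, fun hK' => ?_⟩, ?_⟩
  · rw [isoConst_simplex hK', isoConst_simplex hS]
  · have e : ((n : ℝ) + 1) ^ (n + 1) * ((n : ℝ) + 2) ^ n =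
        ((n : ℝ) + 1) * (((n : ℝ) + 1) * (n + 2)) ^ n := by
      rw [mul_pow]
      ring
    rw [isoConst_simplex hS, e]
    unfold isoConst
    rw [K468.ratio_stdS]

end Vale.Agent.Results.P254.StrongIsotropicConstant
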